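import Vale.Agent.P281.H180.TM.E9
import Vale.Agent.P281.H105.TM.Flat

/-! P281, project T-M, block T0 (helper180): E10 in the letters of ESpec (from `flat`, helper105). -/

open Set Filter Metric Vale.Agent.P281 Vale.Agent.P281.H713 Vale.Agent.P281.H64
open Vale.Agent.P281.H303.Gen (pnt SmEq NsStmt DirStmt)
open Vale.Agent.P281.H64.Gen (IsSmallSet IsAnalyticSet)
open scoped Topology ContDiff Manifold

noncomputable section

namespace Vale.Agent.P281.H180.TM

theorem smallStmt : SmallStmt := by
  intro q X Y _ _ _ _ _ _ _ _ _ f D hf hD hloc h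
  refine H105.TM.flat (X := X) (Y := Y) (F := f) hf hD hloc ?_
  intro w hw e he hde hs
  have hsm : SmEq (n := q + 1 + 1) D e w := by
    obtain ⟨V, hV, hwV, h1, h2, h3⟩ := he
    exact ⟨h1 w hwV, (h2 w hwV).1 hw, hde, by
      filter_upwards [hV.mem_nhds hwV] with z hz using h2 z hz⟩
  have h4 := h w e hsm
  have h5 := rnk_of_onto (A := dM (Cm (q + 1 + 1)) (Cm q) f w) (e := dV (Cm (q + 1 + 1)) e w)
    (fun y => hs y)
  omega

end Vale.Agent.P281.H180.TM
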