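import Vale.Agent.P281.H180.TM.ESpec

/-! P281, project T-M, block T0 (helper180): irreducibility of the image, and the assembly. -/

open Set Filter Metric Vale.Agent.P281 Vale.Agent.P281.H713 Vale.Agent.P281.H64
open Vale.Agent.P281.H303.Gen (pnt SmEq NsStmt DirStmt)
open Vale.Agent.P281.H64.Gen (IsSmallSet IsAnalyticSet)
open Vale.Agent.P281.H150.Gen (pr lst SThin)
open scoped Topology ContDiff Manifold

noncomputable section

namespace Vale.Agent.P281.H180.TM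

/-- A hypersurface which contains the image of a prime divisor as a whole. -/
theorem isPrime_of_hyp {n p : ℕ} {X Z : Type} [TopologicalSpace X] [ChartedSpace (Cm n) X]
    [IsManifold 𝓘(ℂ, Cm n) ω X] [TopologicalSpace Z] [T2Space Z] [ChartedSpace (Cm p) Z]
    [IsManifold 𝓘(ℂ, Cm p) ω Z] {u : X → Z} (hu : ContMDiff 𝓘(ℂ, Cm n) 𝓘(ℂ, Cm p) ω u) {D : Set X}
    (hD : J.IsPrime (Cm n) D) (hc : IsClosed (u '' D))
    (h : ∀ x, ∃ g : Z → ℂ, J.HolAt (Cm p) g x ∧ (¬ ∀ᶠ z in 𝓝 x, g z = 0) ∧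
      ∀ᶠ z in 𝓝 x, z ∈ u '' D ↔ g z = 0) : J.IsPrime (Cm p) (u '' D) := by
  obtain ⟨w₀, hw₀⟩ := hD.2.2.nonempty
  obtain ⟨g, hg, hg0, hgD⟩ := h (u w₀)
  obtain ⟨x, -, e, he, he0, hde, hev⟩ := H511.Gen.exists_smooth hg hg0 hgD
    (mem_image_of_mem u hw₀.1) (N := univ) univ_mem
  obtain ⟨P, hP, hPD, hPe⟩ := H303.Gen.irr p Z (u '' D) hc h x e he he0 hde hev
  have hx : x ∈ u '' D := hev.self_of_nhds.2 he0
  obtain ⟨w, hwD, rfl⟩ := hx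
  have hPx : ∀ᶠ z in 𝓝 (u w), z ∈ u '' D → z ∈ P := by
    filter_upwards [hev, H511.Gen.isLocalEq_mem_iff hPe] with z h1 h2 h3
    exact h2.2 (h1.1 h3)
  have hPw : ∀ᶠ y in 𝓝 w, y ∈ D → y ∈ u ⁻¹' P := by
    filter_upwards [hu.continuous.continuousAt.eventually hPx] with y h1 h2
    exact h1 (mem_image_of_mem u h2)
  obtain ⟨y, hy, hyP⟩ := ((mem_closure_iff_frequently.1
    (H511.Gen.subset_closure_sm hD.2.1 hwD)).and_eventually hPw.eventually_nhds).exists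
  have hsub := H511.Gen.subset_of_eventually hD
    (H511.Gen.isAnalyticSet_preimage hu (H511.Gen.isAnalyticSet_prime hP)) hy hyP
  have heq : u '' D = P := Subset.antisymm (by
    rintro _ ⟨z, hz, rfl⟩
    exact hsub hz) hPD
  rw [heq]
  exact hP

theorem rnk_comp_le {n : ℕ} {V W : Type} [NormedAddCommGroup V] [NormedSpace ℂ V]
    [NormedAddCommGroup W] [NormedSpace ℂ W] (A : Cm n →L[ℂ] V) (B : V →L[ℂ] W)
    (e : Cm n →L[ℂ] ℂ) : rnk (B.comp A) e ≤ rnk A e := by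
  unfold rnk
  have h1 : (LinearMap.ker (e : Cm n →ₗ[ℂ] ℂ)).map ((B.comp A : Cm n →L[ℂ] W) : Cm n →ₗ[ℂ] W) =
      ((LinearMap.ker (e : Cm n →ₗ[ℂ] ℂ)).map (A : Cm n →ₗ[ℂ] V)).map (B : V →ₗ[ℂ] W) := by
    rw [← Submodule.map_comp]
    rfl
  rw [h1]
  exact Submodule.finrank_map_le _ _

theorem exc (h8 : HypStmt) (h9 : TopStmt) (h10 : SmallStmt) (h12 : AnaStmt) :
    H740.TM.ExcStmt := by
  intro q X Z Y _ _ _ _ _ _ _ _ _ _ _ _ _ _ g h hg hh E hE hne hnp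
  by_contra hns
  set f : X → Y := fun x => h (g x) with hfdef
  have hf : ContMDiff 𝓘(ℂ, Cm (q + 1 + 1)) 𝓘(ℂ, Cm q) ω f := hh.comp hg
  have hn : (ω : WithTop ℕ∞) ≠ 0 := by simp
  have hcomp : ∀ x, dM (Cm (q + 1 + 1)) (Cm q) f x =
      (dM (Cm (q + 1)) (Cm q) h (g x)).comp (dM (Cm (q + 1 + 1)) (Cm (q + 1)) g x) := by
    intro x
    exact mfderiv_comp x (g := h) (f := g) ((hh (g x)).mdifferentiableAt hn)
      ((hg x).mdifferentiableAt hn)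
  have hrk : ∀ x e, SmEq (n := q + 1 + 1) E e x →
      rnk (dM (Cm (q + 1 + 1)) (Cm (q + 1)) g x) (dV (Cm (q + 1 + 1)) e x) ≤ q := by
    intro x e he
    by_contra hcon
    exact hne (h9 q X Z g E hg hE.1 hE.2.1 ⟨x, e, he, by omega⟩)
  have hle : ∀ x (e : Cm (q + 1 + 1) →L[ℂ] ℂ), rnk (dM (Cm (q + 1 + 1)) (Cm q) f x) e ≤
      rnk (dM (Cm (q + 1 + 1)) (Cm (q + 1)) g x) e := by
    intro x e
    rw [hcomp x]
    exact rnk_comp_le (dM (Cm (q + 1 + 1)) (Cm (q + 1)) g x) (dM (Cm (q + 1)) (Cm q) h (g x)) e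
  obtain ⟨x₁, e₁, hx₁, hr₁⟩ : ∃ x e, SmEq (n := q + 1 + 1) E e x ∧
      q ≤ rnk (dM (Cm (q + 1 + 1)) (Cm q) f x) (dV (Cm (q + 1 + 1)) e x) := by
    by_contra hcon
    push Not at hcon
    exact hns (h10 q X Y f E hf hE.1 hE.2.1 hcon)
  have hdense : E ⊆ closure {x | ∃ e, SmEq (n := q + 1 + 1) E e x ∧
      rnk (dM (Cm (q + 1 + 1)) (Cm (q + 1)) g x) (dV (Cm (q + 1 + 1)) e x) = q} := by
    have hA := h12 q X Y f E hf hE.1 hE.2.1
    have hx₁E : x₁ ∈ E := hx₁.2.2.2.self_of_nhds.2 hx₁.2.1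
    have hnA : ¬ E ⊆ {x | x ∈ E ∧ ¬ ∃ e, SmEq (n := q + 1 + 1) E e x ∧
        q ≤ rnk (dM (Cm (q + 1 + 1)) (Cm q) f x) (dV (Cm (q + 1 + 1)) e x)} := by
      intro hcon
      exact (hcon hx₁E).2 ⟨e₁, hx₁, hr₁⟩
    refine (H511.Gen.subset_closure_diff hE hA hnA).trans (closure_mono ?_)
    rintro x ⟨hx, hxA⟩
    have hx' : ∃ e, SmEq (n := q + 1 + 1) E e x ∧
        q ≤ rnk (dM (Cm (q + 1 + 1)) (Cm q) f x) (dV (Cm (q + 1 + 1)) e x) := by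
      by_contra hcon
      exact hxA ⟨hx.1, hcon⟩
    obtain ⟨e, he, hr⟩ := hx'
    exact ⟨e, he, le_antisymm (hrk x e he) (hr.trans (hle x _))⟩
  obtain ⟨w₀, hw₀⟩ := hE.2.2.nonempty
  have hcl : IsClosed (g '' E) := (hE.1.isCompact.image hg.continuous).isClosed
  apply hnp
  rw [hcl.closure_eq]
  exact isPrime_of_hyp hg hE hcl (h8 q X Z g E hg hE.1 hE.2.1 ⟨w₀, hw₀.1⟩ hrk hdense)

end Vale.Agent.P281.H180.TM
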