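import Vale.Agent.P281.H180.TM.E9
import Vale.Agent.P281.H349.TM.Good

/-! P281, project T-M, block T0 (helper180): E12 in the letters of ESpec (from `analytic_nsub`,
helper349). -/

open Set Filter Metric Vale.Agent.P281 Vale.Agent.P281.H713 Vale.Agent.P281.H64
open Vale.Agent.P281.H303.Gen (pnt SmEq NsStmt DirStmt)
open Vale.Agent.P281.H64.Gen (IsSmallSet IsAnalyticSet)
open scoped Topology ContDiff Manifold

noncomputable section

namespace Vale.Agent.P281.H180.TM

theorem anaStmt : AnaStmt := by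
  intro q X Y _ _ _ _ _ _ f D hf hD hloc
  have h1 := H349.TM.analytic_nsub (n := q + 1 + 1) (q := q) hf hloc
  convert h1 using 1
  ext w
  refine and_congr_right fun hw => not_congr ⟨?_, ?_⟩
  · rintro ⟨e, he, hr⟩
    exact ⟨e, H511.Gen.isLocalEq_of he.1 he.2.2.1 he.2.2.2, he.2.2.1, fun y => onto_of_rnk hr y⟩
  · rintro ⟨e, he, hde, hs⟩
    obtain ⟨V, hV, hwV, h1, h2, h3⟩ := he
    refine ⟨e, ⟨h1 w hwV, (h2 w hwV).1 hw, hde, ?_⟩, ?_⟩
    · filter_upwards [hV.mem_nhds hwV] with z hz using h2 z hz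
    · exact (rnk_of_onto (A := dM (Cm (q + 1 + 1)) (Cm q) f w) (e := dV (Cm (q + 1 + 1)) e w)
        (fun y => hs y)).ge

end Vale.Agent.P281.H180.TM
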