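import Vale.Agent.P281.H180.TM.ESpec
import Vale.Agent.P281.H105.TM.Full

/-! P281, project T-M, block T0 (helper180): E9 in the letters of ESpec. -/

open Set Filter Metric Vale.Agent.P281 Vale.Agent.P281.H713 Vale.Agent.P281.H64
open Vale.Agent.P281.H303.Gen (pnt SmEq NsStmt DirStmt)
open Vale.Agent.P281.H64.Gen (IsSmallSet IsAnalyticSet)
open scoped Topology ContDiff Manifold

noncomputable section

namespace Vale.Agent.P281.H180.TM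

/-- `rnk` at least the dimension of the target: onto. -/
theorem onto_of_rnk {n p : ℕ} {A : Cm n →L[ℂ] Cm p} {e : Cm n →L[ℂ] ℂ} (h : p ≤ rnk A e)
    (y : Cm p) : ∃ ξ, e ξ = 0 ∧ A ξ = y := by
  have h1 : (LinearMap.ker (e : Cm n →ₗ[ℂ] ℂ)).map (A : Cm n →ₗ[ℂ] Cm p) = ⊤ := by
    apply Submodule.eq_top_of_finrank_eq
    have h2 : Module.finrank ℂ (Cm p) = p := by simp
    have h3 := Submodule.finrank_le ((LinearMap.ker (e : Cm n →ₗ[ℂ] ℂ)).map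
      (A : Cm n →ₗ[ℂ] Cm p))
    have h4 : p ≤ Module.finrank ℂ ((LinearMap.ker (e : Cm n →ₗ[ℂ] ℂ)).map
      (A : Cm n →ₗ[ℂ] Cm p)) := h
    omega
  have h2 : y ∈ (LinearMap.ker (e : Cm n →ₗ[ℂ] ℂ)).map (A : Cm n →ₗ[ℂ] Cm p) := by
    rw [h1]
    trivial
  obtain ⟨ξ, hξ, hy⟩ := h2
  exact ⟨ξ, hξ, hy⟩

/-- Conversely. -/
theorem rnk_of_onto {n p : ℕ} {A : Cm n →L[ℂ] Cm p} {e : Cm n →L[ℂ] ℂ}
    (h : ∀ y : Cm p, ∃ ξ, e ξ = 0 ∧ A ξ = y) : rnk A e = p := by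
  have h1 : (LinearMap.ker (e : Cm n →ₗ[ℂ] ℂ)).map (A : Cm n →ₗ[ℂ] Cm p) = ⊤ := by
    rw [eq_top_iff]
    intro y _
    obtain ⟨ξ, h2, h3⟩ := h y
    exact ⟨ξ, h2, h3⟩
  unfold rnk
  rw [h1, finrank_top]
  simp

theorem topStmt : TopStmt := by
  intro q X Z _ _ _ _ _ _ _ _ _ _ g D hg hD hloc hx
  obtain ⟨x, e, he, hr⟩ := hx
  have h1 := H105.TM.full_rank (X := X) (Z := Z) (g := g) hg hD hloc (w := x) (e := e)
    (he.2.2.2.self_of_nhds.2 he.2.1) (H511.Gen.isLocalEq_of he.1 he.2.2.1 he.2.2.2) he.2.2.1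
    (fun y => onto_of_rnk hr y)
  rw [h1, closure_univ]

end Vale.Agent.P281.H180.TM
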