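import Vale.Agent.P281.H303.Gen.Push
import Vale.Agent.P281.H740.TM.Spec

/-!
# P281, project T-M, block T0 (helper180): the image of a prime divisor, statements (frozen)

`g : X → Z`, `dim X = q + 2`, `dim Z = q + 1`, `D` a reduced hypersurface of `X`, `g|D` of rank `q`
somewhere, `≤ q` everywhere. Then `g(D)` is a hypersurface. Near a point of `Z`, as in `exists_eq`:
a box `B × disc` of `ℂ^q × ℂ`, `(f, t)` the coordinates of `g`, `K = D ∩ g⁻¹(box)` compact. For `b₀ ∈ B`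
very general, the points of `D` over `b₀` where `f|D` is not a submersion are countable; off them `t`
is a function of `f` on `D`; near such a point, by Osgood on the plane curves `D ∩ f⁻¹(b)`, every
value of `t` is taken on a sphere without such points (idea of helper864). So over the
neighbourhoods of the very general `b₀`, `(f, t)(K)` is a finite union of graphs; the equation
extends (the proof of `Cov.main`).
-/

open Set Filter Metric Vale.Agent.P281 Vale.Agent.P281.H713 Vale.Agent.P281.H64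
open Vale.Agent.P281.H303.Gen (pnt SmEq NsStmt DirStmt)
open Vale.Agent.P281.H64.Gen (IsSmallSet IsAnalyticSet)
open Vale.Agent.P281.H150.Gen (pr lst SThin)
open scoped Topology ContDiff Manifold

noncomputable section

namespace Vale.Agent.P281.H180.TM

/-! ### Plane curves (pure) -/

/-- **E1**: a plane curve has no compact open piece. (Let `z ∈ Z` with `Re z_0` maximal. If
`G ≢ 0` on the line `z_0 = const` near `z`, then the lines with larger `Re z_0` contain zeros of `G` near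
`z` (Hurwitz); otherwise the whole line is contained in `Z`.) -/
def CompactStmt : Prop :=
  ∀ (G : Cm 2 → ℂ) (W Z : Set (Cm 2)), IsOpen W → (∀ z ∈ W, AnalyticAt ℂ G z) → IsCompact Z →
    Z ⊆ W → (∀ z ∈ W, z ∈ Z ↔ G z = 0) → Z = ∅

/-- **E2** (from E1): if `t` takes countably many values on the curve, then each value is taken on the
sphere (a small circle around the value avoids the values). -/
def SphereStmt : Prop :=
  ∀ (G t : Cm 2 → ℂ) (a : Cm 2) (ρ : ℝ), 0 < ρ →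
    (∀ z ∈ closedBall a ρ, AnalyticAt ℂ G z ∧ AnalyticAt ℂ t z) →
    (t '' {z | z ∈ closedBall a ρ ∧ G z = 0}).Countable →
    ∀ z ∈ closedBall a ρ, G z = 0 → ∃ w ∈ sphere a ρ, G w = 0 ∧ t w = t z

/-! ### The local structure -/

/-- The dimension of `A (ker e)`. -/
def rnk {n : ℕ} {W : Type} [NormedAddCommGroup W] [NormedSpace ℂ W] (A : Cm n →L[ℂ] W)
    (e : Cm n →L[ℂ] ℂ) : ℕ :=
  Module.finrank ℂ ((LinearMap.ker (e : Cm n →ₗ[ℂ] ℂ)).map (A : Cm n →ₗ[ℂ] W))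

section
variable {q : ℕ} {X : Type} [TopologicalSpace X] [ChartedSpace (Cm (q + 1 + 1)) X]

/-- `D` is smooth at `x`, and `f|D` is a submersion at `x`. -/
def Gd (D : Set X) (f : X → Cm q) (x : X) : Prop :=
  ∃ e : X → ℂ, SmEq (n := q + 1 + 1) D e x ∧ Function.Surjective fun ξ : Cm (q + 1 + 1) =>
    (dV (Cm (q + 1 + 1)) f x ξ, dV (Cm (q + 1 + 1)) e x ξ)

/-- The situation: `D` is a reduced hypersurface, `f`, `t` are holomorphic on `U`, at the good points
`t|D` has differential `0` on the kernel of `d(f|D)`, and the good points are dense. -/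
structure Loc (D U : Set X) (f : X → Cm q) (t : X → ℂ) : Prop where
  cl : IsClosed D
  eq : ∀ x, ∃ g, J.IsLocalEq (Cm (q + 1 + 1)) D g x
  opn : IsOpen U
  hol : ∀ x ∈ U, HolV (Cm (q + 1 + 1)) f x ∧ HolV (Cm (q + 1 + 1)) t x
  rk : ∀ x ∈ U, ∀ e, SmEq (n := q + 1 + 1) D e x →
    (Function.Surjective fun ξ : Cm (q + 1 + 1) =>
      (dV (Cm (q + 1 + 1)) f x ξ, dV (Cm (q + 1 + 1)) e x ξ)) →
    ∀ ξ : Cm (q + 1 + 1), dV (Cm (q + 1 + 1)) f x ξ = 0 → dV (Cm (q + 1 + 1)) e x ξ = 0 →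
      dV (Cm (q + 1 + 1)) t x ξ = 0
  dense : ∀ x ∈ U, x ∈ D → x ∈ closure {z | Gd D f z}

/-- `S` contains the values of `f` which are not very general. -/
structure VG (D U : Set X) (f : X → Cm q) (S : Set (Cm q)) : Prop where
  thin : SThin (Cm q) S
  sub : ∀ x ∈ U, f x ∉ S → Function.Surjective (dV (Cm (q + 1 + 1)) f x)
  cnt : ∀ b ∉ S, {x | x ∈ D ∧ x ∈ U ∧ f x = b ∧ ¬ Gd D f x}.Countable

end

/-- **E3**: near a good point, `t` is a function of `f` on `D`, and `D → ℂ^q` has a section.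
(`exists_straight` and the argument of `exists_factor` of `H150/Gen/Fac` in a chart, for `(f, e)`.) -/
def GraphStmt : Prop :=
  ∀ (q : ℕ) (X : Type) [TopologicalSpace X] [T2Space X] [ChartedSpace (Cm (q + 1 + 1)) X]
    [IsManifold 𝓘(ℂ, Cm (q + 1 + 1)) ω X] (D U : Set X) (f : X → Cm q) (t : X → ℂ),
    Loc D U f t → ∀ x ∈ U, Gd D f x → ∃ (τ : Cm q → ℂ) (s : Cm q → X), AnalyticAt ℂ τ (f x) ∧
      (∀ᶠ z in 𝓝 x, z ∈ D → t z = τ (f z)) ∧ Tendsto s (𝓝 (f x)) (𝓝 x) ∧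
      ∀ᶠ b in 𝓝 (f x), s b ∈ D ∧ f (s b) = b

/-- **E4a** (pure): almost all slices of a subset of a countable union of thin sets are countable.
(Locally `H k ⊆ {g = 0}`, `g ≢ 0` on a ball; off `{b | g(b, s₁) = 0}`, where `g(·, s₁) ≢ 0`, the zeros of
`g(b, ·)` are isolated; Lindelöf.) -/
def SliceStmt : Prop :=
  ∀ (q : ℕ) (S : Set (Cm (q + 1))), SThin (Cm (q + 1)) S → ∃ S' : Set (Cm q), SThin (Cm q) S' ∧
    ∀ b ∉ S', {s : ℂ | pnt b s ∈ S}.Countable

/-- **E4** (from E4a): very general values. (`sub`: `anIn_crit`, `core`. `cnt`: in a chart, let `ζ_j` be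
a coordinate; the points which are not good are contained in the bad set of `NsStmt` for
`(f, ζ_j) : ℂ^(q + 2) → ℂ^(q + 1)` (a linear map of rank `≤ q` on `ℂ^(q+2)`, and one more form, have a
common kernel), whose image is `SThin` (as in `branch_small`); by E4a, for `b` off an `SThin` set, all
the coordinates `ζ_j` take countably many values on the set in question.) -/
def CountStmt : Prop :=
  ∀ (q : ℕ) (X : Type) [TopologicalSpace X] [T2Space X] [SecondCountableTopology X]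
    [ChartedSpace (Cm (q + 1 + 1)) X] [IsManifold 𝓘(ℂ, Cm (q + 1 + 1)) ω X] (D U : Set X)
    (f : X → Cm q) (t : X → ℂ), Loc D U f t → ∃ S, VG D U f S

/-- **E5** (from E2, E3): near a point `x` over a very general value, the values of `t` on `D` are
given by finitely many functions of `f`. (If `x` is good: E3. Otherwise straighten `f` (it is
submersive at `x`): coordinates `(b, ζ) ∈ ℂ^q × ℂ^2`. Choose a sphere `|ζ| = ρ` without bad points over
`b₀ = f x` (they are countable); the points of `D` on it over `b₀` are finitely many pieces where E3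
applies, also over `b` near `b₀`. For `b ∉ S` near `b₀`: `t` takes countably many values on
`D ∩ f⁻¹(b) ∩ {|ζ| ≤ ρ}` (locally constant at good points, the others are countable), so E2. For all
`b` near `b₀`: the points of `D` over the `b ∉ S` are dense in `D` (`Loc.dense`, E3), and
`∏ (t - τ_j ∘ f) = 0` is a closed condition.) -/
def LocStmt : Prop :=
  ∀ (q : ℕ) (X : Type) [TopologicalSpace X] [T2Space X] [SecondCountableTopology X]
    [ChartedSpace (Cm (q + 1 + 1)) X] [IsManifold 𝓘(ℂ, Cm (q + 1 + 1)) ω X] (D U : Set X)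
    (f : X → Cm q) (t : X → ℂ) (S : Set (Cm q)), Loc D U f t → VG D U f S →
    ∀ x ∈ U, x ∈ D → f x ∉ S → ∃ T : Finset (Cm q → ℂ), (∀ τ ∈ T, AnalyticAt ℂ τ (f x) ∧
      ∀ᶠ b in 𝓝 (f x), ∃ z, z ∈ D ∧ z ∈ U ∧ f z = b ∧ t z = τ b) ∧
      ∀ᶠ z in 𝓝 x, z ∈ D → ∃ τ ∈ T, t z = τ (f z)

/-- **E6** (from E3, E5; compactness): over a very general `b₀` the image of `K` is a finite union of
graphs, and the image of `D` near a point has interior points in `ℂ^q`. -/
def FinStmt : Prop :=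
  ∀ (q : ℕ) (X : Type) [TopologicalSpace X] [T2Space X] [SecondCountableTopology X]
    [ChartedSpace (Cm (q + 1 + 1)) X] [IsManifold 𝓘(ℂ, Cm (q + 1 + 1)) ω X] (D U K : Set X)
    (B : Set (Cm q)) (f : X → Cm q) (t : X → ℂ) (S : Set (Cm q)), Loc D U f t → VG D U f S →
    IsCompact K → IsOpen B → (∀ x ∈ K, ContinuousAt f x ∧ ContinuousAt t x) →
    (∀ x, x ∈ K ∧ f x ∈ B ↔ x ∈ D ∧ x ∈ U) →
    (∀ b₀ ∈ B, b₀ ∉ S → ∃ T : Finset (Cm q → ℂ), (∀ τ ∈ T, AnalyticAt ℂ τ b₀) ∧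
      ∀ᶠ b in 𝓝 b₀, ∀ s : ℂ, (∃ x ∈ K, f x = b ∧ t x = s) ↔ ∃ τ ∈ T, s = τ b) ∧
    ∀ x ∈ U, x ∈ D → ∀ N ∈ 𝓝 x, (interior (f '' (D ∩ N))).Nonempty

/-- **E7** (pure; from NsStmt): extension of the equation over a small set. (Let `B₁` be a smaller
closed ball, `T` the image in it of the points of `C` where `C` is not a smooth hypersurface étale over
`ℂ^q` (`EtAt C (pr q)`): closed; off `S` it is locally contained in `{∏ (τ_i - τ_j) = 0}` (the pairs of
different germs): `IsSmallSet`. Then the proof of `Cov.main` (X = ℂ^(q+1), K = D = C, f = pr, t = lst)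
with this `T` in place of the branch locus; the density of the étale points is `hint`.) -/
def ExtStmt : Prop :=
  ∀ (q : ℕ) (C : Set (Cm (q + 1))) (B S : Set (Cm q)), IsCompact C → IsOpen B → SThin (Cm q) S →
    (∀ b₀ ∈ B, b₀ ∉ S → ∃ T : Finset (Cm q → ℂ), (∀ τ ∈ T, AnalyticAt ℂ τ b₀) ∧
      ∀ᶠ b in 𝓝 b₀, ∀ s : ℂ, pnt b s ∈ C ↔ ∃ τ ∈ T, s = τ b) →
    (∀ v ∈ C, pr q v ∈ B → ∀ N ∈ 𝓝 v, (interior (pr q '' (C ∩ N))).Nonempty) →
    ∀ v₀ : Cm (q + 1), pr q v₀ ∈ B → ∃ Q : Cm (q + 1) → ℂ, AnalyticAt ℂ Q v₀ ∧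
      (¬ ∀ᶠ v in 𝓝 v₀, Q v = 0) ∧ ∀ᶠ v in 𝓝 v₀, v ∈ C ↔ Q v = 0

/-- **E8** (from DirStmt, E4, E6, E7): the image is a hypersurface (the text of `H303.Gen.exists_eq`, the
direction off `dg (ker de)` at a dense sequence of good points; `g(D)` is in a countable union of thin
sets by `ImgStmt`: if `g ∘ φ` is submersive, `φ` with values in `D`, there are also points with
`rnk = q + 1` by `NsStmt`, or see `branch_small`). -/
def HypStmt : Prop :=
  ∀ (q : ℕ) (X Z : Type) [TopologicalSpace X] [T2Space X] [CompactSpace X]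
    [ChartedSpace (Cm (q + 1 + 1)) X] [IsManifold 𝓘(ℂ, Cm (q + 1 + 1)) ω X] [TopologicalSpace Z]
    [T2Space Z] [ChartedSpace (Cm (q + 1)) Z] [IsManifold 𝓘(ℂ, Cm (q + 1)) ω Z] (g : X → Z)
    (D : Set X), ContMDiff 𝓘(ℂ, Cm (q + 1 + 1)) 𝓘(ℂ, Cm (q + 1)) ω g → IsClosed D →
    (∀ x, ∃ e, J.IsLocalEq (Cm (q + 1 + 1)) D e x) → D.Nonempty →
    (∀ x e, SmEq (n := q + 1 + 1) D e x →
      rnk (dM (Cm (q + 1 + 1)) (Cm (q + 1)) g x) (dV (Cm (q + 1 + 1)) e x) ≤ q) →
    D ⊆ closure {x | ∃ e, SmEq (n := q + 1 + 1) D e x ∧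
      rnk (dM (Cm (q + 1 + 1)) (Cm (q + 1)) g x) (dV (Cm (q + 1 + 1)) e x) = q} →
    ∀ z₀ : Z, ∃ G : Z → ℂ, J.HolAt (Cm (q + 1)) G z₀ ∧ (¬ ∀ᶠ z in 𝓝 z₀, G z = 0) ∧
      ∀ᶠ z in 𝓝 z₀, z ∈ g '' D ↔ G z = 0

/-- **E9**: a smooth point of `D` where `g|D` is étale. (`T = g {x ∈ D : D is not étale over Z at x}` is
small, as in `branch_small`; off `T`, `g(D)` is open and closed, and `Z ∖ T` is connected.) -/
def TopStmt : Prop :=
  ∀ (q : ℕ) (X Z : Type) [TopologicalSpace X] [T2Space X] [CompactSpace X]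
    [ChartedSpace (Cm (q + 1 + 1)) X] [IsManifold 𝓘(ℂ, Cm (q + 1 + 1)) ω X] [TopologicalSpace Z]
    [T2Space Z] [ConnectedSpace Z] [ChartedSpace (Cm (q + 1)) Z]
    [IsManifold 𝓘(ℂ, Cm (q + 1)) ω Z] (g : X → Z)
    (D : Set X), ContMDiff 𝓘(ℂ, Cm (q + 1 + 1)) 𝓘(ℂ, Cm (q + 1)) ω g → IsClosed D →
    (∀ x, ∃ e, J.IsLocalEq (Cm (q + 1 + 1)) D e x) →
    (∃ x e, SmEq (n := q + 1 + 1) D e x ∧
      q + 1 ≤ rnk (dM (Cm (q + 1 + 1)) (Cm (q + 1)) g x) (dV (Cm (q + 1 + 1)) e x)) →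
    closure (g '' D) = univ

/-- **E10**: if `f|D` is submersive at no smooth point of `D`, `dim Y = q`, then `f(D)` is small.
(`ImgStmt`: otherwise `f` has a local section `σ` with values in `D`. Straighten `f` near a point of it:
`D = {G(b, ζ) = 0}`, `G(b, 0) = 0` for all `b`, and `∂G/∂ζ = 0` at the smooth points of `D`, so on `D`, so
`∂G/∂ζ = a G` (`G` is reduced), so `G(b, ·) = 0` for all `b`.) -/
def SmallStmt : Prop :=
  ∀ (q : ℕ) (X Y : Type) [TopologicalSpace X] [T2Space X] [CompactSpace X]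
    [ChartedSpace (Cm (q + 1 + 1)) X] [IsManifold 𝓘(ℂ, Cm (q + 1 + 1)) ω X] [TopologicalSpace Y]
    [T2Space Y] [ChartedSpace (Cm q) Y] [IsManifold 𝓘(ℂ, Cm q) ω Y] (f : X → Y)
    (D : Set X), ContMDiff 𝓘(ℂ, Cm (q + 1 + 1)) 𝓘(ℂ, Cm q) ω f → IsClosed D →
    (∀ x, ∃ e, J.IsLocalEq (Cm (q + 1 + 1)) D e x) →
    (∀ x e, SmEq (n := q + 1 + 1) D e x →
      rnk (dM (Cm (q + 1 + 1)) (Cm q) f x) (dV (Cm (q + 1 + 1)) e x) < q) →
    IsSmallSet (Cm q) (f '' D)

/-- **E12**: the points of `D` which are not smooth, or where `f|D` is not submersive, form an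
analytic set (as `anIn_bad`, `H364.critSet_analytic`). -/
def AnaStmt : Prop :=
  ∀ (q : ℕ) (X Y : Type) [TopologicalSpace X] [ChartedSpace (Cm (q + 1 + 1)) X]
    [IsManifold 𝓘(ℂ, Cm (q + 1 + 1)) ω X] [TopologicalSpace Y]
    [ChartedSpace (Cm q) Y] [IsManifold 𝓘(ℂ, Cm q) ω Y] (f : X → Y)
    (D : Set X), ContMDiff 𝓘(ℂ, Cm (q + 1 + 1)) 𝓘(ℂ, Cm q) ω f → IsClosed D →
    (∀ x, ∃ e, J.IsLocalEq (Cm (q + 1 + 1)) D e x) →
    IsAnalyticSet (Cm (q + 1 + 1)) {x | x ∈ D ∧ ¬ ∃ e, SmEq (n := q + 1 + 1) D e x ∧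
      q ≤ rnk (dM (Cm (q + 1 + 1)) (Cm q) f x) (dV (Cm (q + 1 + 1)) e x)}

end Vale.Agent.P281.H180.TM
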