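import Vale.Agent.P281.H180.TM.E10
import Vale.Agent.P281.H180.TM.E11
import Vale.Agent.P281.H180.TM.E12
import Vale.Agent.P281.H22.TM.E3
import Vale.Agent.P281.H22.TM.E6
import Vale.Agent.P281.H48.TM.E4a
import Vale.Agent.P281.H118.TM.E4
import Vale.Agent.P281.H118.TM.E7
import Vale.Agent.P281.H349.TM.Hyp
import Vale.Agent.P281.H864.TM.E5

/-!
# P281, project T-M, block T0: the image of a prime divisor (`ExcStmt`), without input

Parts: E3, E6 helper22; E4a helper48; E4, E7 helper118; E5 helper864; E8 helper349; E9, E10 helper105;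
E12 helper349, helper648; spec, E11 and plugs helper180.
-/

namespace Vale.Agent.P281.H180.TM

/-- **Block T0.** -/
theorem hypStmt : HypStmt :=
  H349.TM.hyp (H118.TM.e4' H48.TM.e4a)
    (H22.TM.fin_of H22.TM.graph (H864.TM.loc H22.TM.graph)) H118.TM.e7

theorem excStmt : H740.TM.ExcStmt := exc hypStmt topStmt smallStmt anaStmt

end Vale.Agent.P281.H180.TM
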